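import Crest.Agent.R169.Trans.PrimeI

/-!
# Row 169, Symm field `trans`, step 5: transitivity on the minimal primes over `X` in `TO`.
-/

set_option autoImplicit false

open Crest.R169

namespace Crest.Agent.R169.Trans7

/-- a minimal nonzero prime (= height one prime of a domain) -/
structure IsH1 {R : Type} [CommRing R] (P : Ideal R) : Prop where
  prime : P.IsPrime
  ne_bot : P ≠ ⊥
  min : ∀ q : Ideal R, q.IsPrime → q ≤ P → q ≠ ⊥ → q = P

theorem IsH1.comap {R S : Type} [CommRing R] [CommRing S] (e : R ≃+* S) {P : Ideal S}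
    (h : IsH1 P) : IsH1 (Ideal.comap (e : R →+* S) P) := by
  have hbot : ∀ (q : Ideal R), q ≠ ⊥ → Ideal.comap (e.symm : S →+* R) q ≠ ⊥ := by
    intro q hq h0
    apply hq
    rw [eq_bot_iff]
    intro x hx
    have : e x ∈ Ideal.comap (e.symm : S →+* R) q := by
      rw [Ideal.mem_comap]
      simpa using hx
    rw [h0, Ideal.mem_bot] at this
    rw [Ideal.mem_bot]
    exact (map_eq_zero_iff e e.injective).mp this
  refine ⟨?_, ?_, ?_⟩
  · haveI := h.prime
    exact Ideal.comap_isPrime _ _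
  · intro h0
    apply h.ne_bot
    rw [eq_bot_iff]
    intro x hx
    have : e.symm x ∈ Ideal.comap (e : R →+* S) P := by
      rw [Ideal.mem_comap]
      simpa using hx
    rw [h0, Ideal.mem_bot] at this
    rw [Ideal.mem_bot]
    exact (map_eq_zero_iff e.symm e.symm.injective).mp this
  · intro q hq hle hne
    have := hq
    have h1 : Ideal.comap (e.symm : S →+* R) q = P := by
      apply h.min _ (Ideal.comap_isPrime _ _) _ (hbot q hne)
      intro x hx
      rw [Ideal.mem_comap] at hx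
      have := hle hx
      rw [Ideal.mem_comap] at this
      simpa using this
    ext x
    rw [Ideal.mem_comap, ← h1, Ideal.mem_comap]
    simp

variable {n : ℕ} {k : Type} [Field k]

/-- `tauO` as a ring automorphism -/
noncomputable def tauE (i : Fin 5) (g : Mu n k) : TO n k ≃+* TO n k :=
  RingEquiv.ofRingHom (tauO i g : TO n k →+* TO n k)
    (tauO (-i) (fun j => (g (j - i))⁻¹) : TO n k →+* TO n k)
    (by
      ext1 t
      show tauO i g (tauO (-i) (fun j => (g (j - i))⁻¹) t) = t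
      rw [tauO_comp]
      have h1 : (-i : Fin 5) + i = 0 := neg_add_cancel i
      have h2 : (fun j => (g (j - i))⁻¹ * g (j + -i)) = (1 : Mu n k) := by
        funext j
        rw [← sub_eq_add_neg, inv_mul_cancel]; rfl
      rw [h1, h2, tauO_one])
    (by
      ext1 t
      show tauO (-i) (fun j => (g (j - i))⁻¹) (tauO i g t) = t
      rw [tauO_comp]
      have h1 : i + (-i : Fin 5) = 0 := add_neg_cancel i
      have h2 : (fun j => g j * (g (j + i - i))⁻¹) = (1 : Mu n k) := by
        funext j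
        rw [add_sub_cancel_right, mul_inv_cancel]; rfl
      rw [h1, h2, tauO_one])

theorem tauE_apply (i : Fin 5) (g : Mu n k) (t : TO n k) : tauE i g t = tauO i g t := rfl

/-- norm and prime avoidance -/
theorem exists_le_comap [NeZero n] (p P : Ideal (TO n k)) (hP : P.IsPrime)
    (h : ∀ t ∈ p, (∀ g : Mu n k, tauO 0 g t = t) → t ∈ P) :
    ∃ g : Mu n k, p ≤ Ideal.comap (tauE 0 g : TO n k →+* TO n k) P := by
  classical
  let _ : Fintype (Mu n k) := Fintype.ofFinite (Mu n k)
  have h1 : (p : Set (TO n k)) ⊆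
      ⋃ g ∈ ((Finset.univ : Finset (Mu n k)) : Set (Mu n k)),
        (Ideal.comap (tauE 0 g : TO n k →+* TO n k) P : Ideal (TO n k)) := by
    intro t ht
    have h2 : (∏ g : Mu n k, tauO 0 g t) ∈ P := by
      apply h
      · rw [← Finset.mul_prod_erase Finset.univ _ (Finset.mem_univ (1 : Mu n k)), tauO_one]
        exact Ideal.mul_mem_right _ _ ht
      · intro g
        rw [map_prod]
        refine Fintype.prod_equiv (Equiv.mulRight g) _ _ fun h => ?_
        rw [tauO_comp]
        simp only [Equiv.coe_mulRight, add_zero]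
        rfl
    obtain ⟨g, -, hg⟩ := (Ideal.IsPrime.prod_mem_iff (hp := hP)).mp h2
    simp only [Finset.coe_univ, Set.mem_univ, Set.iUnion_true, Set.mem_iUnion, SetLike.mem_coe]
    exact ⟨g, hg⟩
  obtain ⟨g, -, hg⟩ := (Ideal.subset_union_prime (1 : Mu n k) 1 (fun g _ _ _ => by
    have := hP
    exact Ideal.comap_isPrime _ _)).mp h1
  exact ⟨g, hg⟩

/-- every prime containing `X` has a side -/
theorem exists_side (hn : 0 < n) (P : Ideal (TO n k)) (hP : P.IsPrime) (hX : xE ∈ P) :
    ∃ i, JI n k i ≤ P := by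
  have h : ∀ j : Fin 5, yE j ∈ P ∨ yE (j + 1) ∈ P := by
    intro j
    have h1 : (yE j : TO n k) ^ n * yE (j + 1) ^ n ∈ P := by
      rw [yE_rel]
      exact add_mem (Ideal.pow_mem_of_mem _ hX _ (by omega))
        (Ideal.mul_mem_right _ _ (Ideal.pow_mem_of_mem _ hX _ hn))
    rcases hP.mem_or_mem h1 with h2 | h2
    · exact Or.inl (hP.mem_of_pow_mem _ h2)
    · exact Or.inr (hP.mem_of_pow_mem _ h2)
  obtain ⟨i, hi⟩ := cover (fun j => yE j ∈ P) h
  exact ⟨i, JI_le hX hi⟩

section Basis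

variable (b : Module.Basis {β : Fin 5 → ℕ // Good n β} k (ORing n k))
  (hb : ∀ β, b β = zm n k β.1)
  (hfil : ∀ (m : ℤ) (x : ORing n k), x ∈ Fil n k m → ∀ β, b.repr x β ≠ 0 → ∀ j, w j β.1 ≤ m)

include hb hfil in
/-- an invariant element of `p` (`p ∩ k[e_{i-1}, e_{i+1}] = 0`, `p ⊇ J_i`) lies in `J_i` -/
theorem inv_mem_JI (hn : 0 < n) {ζ : k} (hζ : IsPrimitiveRoot ζ n) (i : Fin 5)
    (p : Ideal (TO n k)) (hJ : JI n k i ≤ p) (hp : ∀ h, polyE n k i h ∈ p → h = 0)
    (t : TO n k) (ht : t ∈ p) (hinv : ∀ g : Mu n k, tauO 0 g t = t) : t ∈ JI n k i := by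
  have h1 := fixed_mem_WI b hb hn hζ hfil i t hinv
  obtain ⟨a, ⟨h, rfl⟩, c, hc, rfl⟩ := Submodule.mem_sup.mp h1
  have hc' : c ∈ JI n k i := hc
  have h2 : polyE n k i h ∈ p := by
    have := Ideal.sub_mem p ht (hJ hc')
    rw [add_sub_cancel_right] at this
    exact this
  have h3 := hp h h2
  rw [h3, map_zero, zero_add]
  exact hc'

include hb hfil in
theorem same_side (hn : 0 < n) {ζ : k} (hζ : IsPrimitiveRoot ζ n) (i : Fin 5)
    (P P' : Ideal (TO n k)) (hP : IsH1 P) (hP' : IsH1 P') (hJ : JI n k i ≤ P)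
    (hJ' : JI n k i ≤ P') :
    ∃ g : Mu n k, P = Ideal.comap (tauE 0 g : TO n k →+* TO n k) P' := by
  have : NeZero n := ⟨hn.ne'⟩
  obtain ⟨d⟩ := exists_vdata k
  obtain ⟨p, hp, hJp, hp0⟩ := exists_prime d hn i
  have hinv := inv_mem_JI b hb hfil hn hζ i p hJp hp0
  have hpne : p ≠ ⊥ := by
    intro h0
    have hx : (xE : TO n k) ∈ p := hJp (xE_mem_JI i)
    rw [h0, Ideal.mem_bot] at hx
    have h1 : (Polynomial.X : Polynomial (ORing n k)) = 0 := by
      rw [← xE_val, hx]; rfl
    have : Nontrivial (ORing n k) := by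
      by_contra hnt
      rw [not_nontrivial_iff_subsingleton] at hnt
      have : Subsingleton (TO n k) := ⟨fun a b => Subtype.ext (Subsingleton.elim _ _)⟩
      exact hp.ne_top (Subsingleton.elim _ _)
    exact Polynomial.X_ne_zero h1
  obtain ⟨g, hg⟩ := exists_le_comap p P hP.prime (fun t ht hi => hJ (hinv t ht hi))
  have hpg : p = Ideal.comap (tauE 0 g : TO n k →+* TO n k) P :=
    (IsH1.comap (tauE 0 g) hP).min p hp hg hpne
  obtain ⟨g', hg'⟩ := exists_le_comap P P' hP'.prime (fun t ht hi => by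
    apply hJ'
    apply hinv t _ hi
    rw [hpg, Ideal.mem_comap]
    show tauO 0 g t ∈ P
    rw [hi g]
    exact ht)
  exact ⟨g', (IsH1.comap (tauE 0 g') hP').min P hP.prime hg' hP.ne_bot⟩

include hb hfil in
/-- transitivity of `μ_n^5 ⋊ ℤ/5` on the height one primes of `TO` containing `X`. -/
theorem trans_core (hn : 0 < n) {ζ : k} (hζ : IsPrimitiveRoot ζ n)
    (P P' : Ideal (TO n k)) (hP : IsH1 P) (hP' : IsH1 P') (hX : xE ∈ P) (hX' : xE ∈ P') :
    ∃ (i : Fin 5) (g : Mu n k), P = Ideal.comap (tauE i g : TO n k →+* TO n k) P' := by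
  obtain ⟨i, hi⟩ := exists_side hn P hP.prime hX
  obtain ⟨i', hi'⟩ := exists_side hn P' hP'.prime hX'
  -- rotate `P` to side `i'`
  let ρ : TO n k ≃+* TO n k := tauE (i - i') (1 : Mu n k)
  have hρ := IsH1.comap ρ hP
  have hJρ : JI n k i' ≤ Ideal.comap (ρ : TO n k →+* TO n k) P := by
    apply JI_le
    · rw [Ideal.mem_comap]
      show tauO (i - i') 1 xE ∈ P
      rw [tauO_xE]; exact hX
    · intro j h1 h2
      rw [Ideal.mem_comap]
      show tauO (i - i') 1 (yE j) ∈ P
      rw [tauO_yE, Algebra.smul_def]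
      apply Ideal.mul_mem_left
      apply hi
      apply yE_mem_JI
      · intro h; apply h1
        have : j = i + 4 - (i - i') := by rw [← h]; abel
        rw [this]; abel
      · intro h; apply h2
        have : j = i + 1 - (i - i') := by rw [← h]; abel
        rw [this]; abel
  obtain ⟨g, hg⟩ := same_side b hb hfil hn hζ i' _ P' hρ hP' hJρ hi'
  refine ⟨i' - i, fun j => g (j + (i' - i)), ?_⟩
  ext t
  have h1 : tauO (i - i') (1 : Mu n k) (tauO (i' - i) (1 : Mu n k) t) = t := by
    rw [tauO_comp]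
    have e1 : i' - i + (i - i') = 0 := by abel
    have e2 : (fun j => (1 : Mu n k) j * (1 : Mu n k) (j + (i' - i))) = (1 : Mu n k) := by
      funext j; simp
    rw [e1, e2, tauO_one]
  have h2 : t ∈ P ↔ tauO (i' - i) (1 : Mu n k) t ∈ Ideal.comap (ρ : TO n k →+* TO n k) P := by
    rw [Ideal.mem_comap]
    show _ ↔ tauO (i - i') (1 : Mu n k) (tauO (i' - i) (1 : Mu n k) t) ∈ P
    rw [h1]
  rw [h2, hg, Ideal.mem_comap, Ideal.mem_comap]
  show tauO 0 g (tauO (i' - i) (1 : Mu n k) t) ∈ P' ↔ tauO (i' - i) _ t ∈ P'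
  rw [tauO_comp]
  have e1 : i' - i + 0 = i' - i := add_zero _
  have e2 : (fun j => (1 : Mu n k) j * g (j + (i' - i))) = fun j => g (j + (i' - i)) := by
    funext j; simp
  rw [e1, e2]

end Basis

end Crest.Agent.R169.Trans7
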