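import Crest.Agent.R169.Trans.TOring

/-!
# Row 169, Symm field `trans`, step 3: invariants of `μ_n^5` in `TO`.
-/

set_option autoImplicit false

open Crest.R169

namespace Crest.Agent.R169.Trans7

theorem cover_bool : ∀ s : Fin 5 → Bool, (∀ j, s j = true ∨ s (j + 1) = true) →
    ∃ i, ∀ j, j ≠ i + 4 → j ≠ i + 1 → s j = true := by
  decide

theorem cover (s : Fin 5 → Prop) (h : ∀ j, s j ∨ s (j + 1)) :
    ∃ i, ∀ j, j ≠ i + 4 → j ≠ i + 1 → s j := by
  classical
  obtain ⟨i, hi⟩ := cover_bool (fun j => decide (s j)) (fun j => by simpa using h j)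
  exact ⟨i, fun j h1 h2 => by simpa using hi j h1 h2⟩

theorem ne_45 (i : Fin 5) : i + 4 ≠ i + 1 := by revert i; decide

theorem self_ne4 (i : Fin 5) : i ≠ i + 4 := by revert i; decide

theorem self_ne1 (i : Fin 5) : i ≠ i + 1 := by revert i; decide

/-- sum over `Fin 5` of a function vanishing outside `i+4, i+1` -/
theorem sum_two (i : Fin 5) (γ : Fin 5 → ℕ) (h : ∀ j, j ≠ i + 4 → j ≠ i + 1 → γ j = 0) :
    ∑ j, γ j = γ (i + 4) + γ (i + 1) := by
  rw [← Finset.sum_subset (Finset.subset_univ {i + 4, i + 1})]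
  · rw [Finset.sum_pair (ne_45 i)]
  · intro j _ hj
    simp only [Finset.mem_insert, Finset.mem_singleton, not_or] at hj
    exact h j hj.1 hj.2

theorem prod_two {M : Type} [CommMonoid M] (i : Fin 5) (f : Fin 5 → M)
    (h : ∀ j, j ≠ i + 4 → j ≠ i + 1 → f j = 1) :
    ∏ j, f j = f (i + 4) * f (i + 1) := by
  rw [← Finset.prod_subset (Finset.subset_univ {i + 4, i + 1})]
  · rw [Finset.prod_pair (ne_45 i)]
  · intro j _ hj
    simp only [Finset.mem_insert, Finset.mem_singleton, not_or] at hj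
    exact h j hj.1 hj.2

variable {n : ℕ} {k : Type} [Field k]

/-- the ideal `(X, z_j X : j ≠ i ± 1)` of `TO` -/
noncomputable def JI (n : ℕ) (k : Type) [Field k] (i : Fin 5) : Ideal (TO n k) :=
  Ideal.span ({xE} ∪ yE '' {j | j ≠ i + 4 ∧ j ≠ i + 1})

theorem xE_mem_JI (i : Fin 5) : xE ∈ JI n k i := Ideal.subset_span (Or.inl rfl)

theorem yE_mem_JI (i j : Fin 5) (h1 : j ≠ i + 4) (h2 : j ≠ i + 1) : yE j ∈ JI n k i :=
  Ideal.subset_span (Or.inr ⟨j, ⟨h1, h2⟩, rfl⟩)

theorem JI_le {i : Fin 5} {P : Ideal (TO n k)} (hx : xE ∈ P)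
    (hy : ∀ j, j ≠ i + 4 → j ≠ i + 1 → yE j ∈ P) : JI n k i ≤ P := by
  rw [JI, Ideal.span_le]
  rintro _ (rfl | ⟨j, ⟨h1, h2⟩, rfl⟩)
  · exact hx
  · exact hy j h1 h2

/-- `k[e_{i-1}, e_{i+1}] → TO`, `e_j = (z_j X)^n` -/
noncomputable def polyE (n : ℕ) (k : Type) [Field k] (i : Fin 5) :
    MvPolynomial (Fin 2) k →ₐ[k] TO n k :=
  MvPolynomial.aeval ![yE (i + 4) ^ n, yE (i + 1) ^ n]

/-- the `k`-subspace `k[e_{i-1}, e_{i+1}] + (X, z_j X : j ≠ i ± 1)` -/
noncomputable def WI (n : ℕ) (k : Type) [Field k] (i : Fin 5) : Submodule k (TO n k) :=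
  LinearMap.range (polyE n k i).toLinearMap ⊔ (JI n k i).restrictScalars k

theorem JI_le_WI (i : Fin 5) {t : TO n k} (ht : t ∈ JI n k i) : t ∈ WI n k i :=
  Submodule.mem_sup_right ht

/-- the monomial `Z^γ X^m` as a product -/
theorem monomial_zm_eq (γ : Fin 5 → ℕ) (m : ℕ) (hm : n * ∑ j, γ j ≤ m) :
    Polynomial.monomial m (zm n k (n • γ)) =
      ((xE : TO n k) ^ (m - n * ∑ j, γ j) * ∏ j, (yE j : TO n k) ^ (n * γ j) : TO n k).1 := by
  have h1 : (∏ j, (yE j : TO n k) ^ (n * γ j) : TO n k).1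
      = Polynomial.monomial (n * ∑ j, γ j) (zm n k (n • γ)) := by
    have h2 : (∏ j, (yE j : TO n k) ^ (n * γ j) : TO n k).1
        = ∏ j, (Polynomial.C (z n k j) * Polynomial.X) ^ (n * γ j) := by
      have := map_prod (TO n k).val (fun j => (yE j : TO n k) ^ (n * γ j)) Finset.univ
      simpa [yE_val] using this
    rw [h2]
    simp only [mul_pow]
    rw [Finset.prod_mul_distrib, Finset.prod_pow_eq_pow_sum, ← Finset.mul_sum]
    have h3 : ∏ j, Polynomial.C (z n k j) ^ (n * γ j) = Polynomial.C (zm n k (n • γ)) := by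
      rw [zm, map_prod]
      simp [Pi.smul_apply, smul_eq_mul]
    rw [h3, Polynomial.C_mul_X_pow_eq_monomial]
  rw [MulMemClass.coe_mul, h1, SubmonoidClass.coe_pow, xE_val, Polynomial.X_pow_mul_monomial,
    Nat.add_sub_cancel' hm]

theorem mono_mem_WI (i : Fin 5) (hn : 0 < n) (γ : Fin 5 → ℕ) (hγ : ∀ j, γ j = 0 ∨ γ (j + 1) = 0)
    (m : ℕ) (hw : ∀ j, w j (n • γ) ≤ m) :
    ∃ t ∈ WI n k i, t.1 = Polynomial.monomial m (zm n k (n • γ)) := by
  obtain ⟨l, hl⟩ := cover (fun j => γ j = 0) hγ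
  have hsum := sum_two l γ hl
  have hwl := hw l
  have hl0 : γ l = 0 := hl l (self_ne4 l) (self_ne1 l)
  have hm : n * ∑ j, γ j ≤ m := by
    simp only [w, Pi.smul_apply, smul_eq_mul, hl0, mul_zero, Nat.cast_zero, sub_zero] at hwl
    rw [hsum, mul_add]
    exact_mod_cast hwl
  refine ⟨_, ?_, (monomial_zm_eq γ m hm).symm⟩
  rcases Nat.lt_or_ge (n * ∑ j, γ j) m with hlt | hge
  · -- factor `X`
    apply JI_le_WI
    apply Ideal.mul_mem_right
    exact Ideal.pow_mem_of_mem _ (xE_mem_JI i) _ (by omega)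
  · have hm2 : m - n * ∑ j, γ j = 0 := by omega
    rw [hm2, pow_zero, one_mul]
    by_cases hc : ∀ j, j ≠ i + 4 → j ≠ i + 1 → γ j = 0
    · apply Submodule.mem_sup_left
      refine ⟨MvPolynomial.X 0 ^ γ (i + 4) * MvPolynomial.X 1 ^ γ (i + 1), ?_⟩
      rw [AlgHom.toLinearMap_apply, map_mul, map_pow, map_pow, polyE, MvPolynomial.aeval_X,
        MvPolynomial.aeval_X, prod_two i]
      · simp only [Matrix.cons_val_zero, Matrix.cons_val_one, ← pow_mul]
      · intro j h1 h2
        rw [hc j h1 h2, mul_zero, pow_zero]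
    · push Not at hc
      obtain ⟨j, h1, h2, h3⟩ := hc
      apply JI_le_WI
      rw [← Finset.mul_prod_erase Finset.univ _ (Finset.mem_univ j)]
      apply Ideal.mul_mem_right
      refine Ideal.pow_mem_of_mem _ (yE_mem_JI i j h1 h2) _ ?_
      exact Nat.mul_pos hn (Nat.pos_of_ne_zero h3)

section Basis

variable (b : Module.Basis {β : Fin 5 → ℕ // Good n β} k (ORing n k))
  (hb : ∀ β, b β = zm n k β.1)

include hb in
theorem repr_phiO (g : Mu n k) (x : ORing n k) (β : {β : Fin 5 → ℕ // Good n β}) :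
    b.repr (phiO 0 g x) β = chi g β.1 * b.repr x β := by
  have h : (Finsupp.lapply β ∘ₗ b.repr.toLinearMap) ∘ₗ (phiO 0 g).toLinearMap
      = chi g β.1 • (Finsupp.lapply β ∘ₗ b.repr.toLinearMap) := by
    apply b.ext
    intro α
    have h1 : phiO 0 g (b α) = chi g α.1 • b α := by
      rw [hb, phiO_zm]
      simp only [sub_zero]
    simp only [LinearMap.comp_apply, AlgHom.toLinearMap_apply, h1, LinearEquiv.coe_coe,
      Finsupp.lapply_apply, LinearMap.smul_apply, map_smul,
      Module.Basis.repr_self, smul_eq_mul]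
    rcases eq_or_ne α β with rfl | hne
    · rfl
    · rw [Finsupp.single_eq_of_ne (Ne.symm hne), mul_zero, mul_zero]
  exact LinearMap.congr_fun h x

include hb in
/-- coordinates of an invariant element live on exponents divisible by `n` -/
theorem dvd_of_fixed (hn : 0 < n) {ζ : k} (hζ : IsPrimitiveRoot ζ n) {x : ORing n k}
    (hx : ∀ g : Mu n k, phiO 0 g x = x) (β : {β : Fin 5 → ℕ // Good n β})
    (hβ : b.repr x β ≠ 0) (j : Fin 5) : n ∣ β.1 j := by
  classical
  have hζu : IsUnit ζ := hζ.isUnit hn.ne'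
  let u : rootsOfUnity n k := ⟨hζu.unit, by
    rw [mem_rootsOfUnity]
    apply Units.ext
    rw [Units.val_pow_eq_pow_val, IsUnit.unit_spec, hζ.pow_eq_one, Units.val_one]⟩
  let g : Mu n k := Pi.mulSingle j u
  have h1 := repr_phiO b hb g x β
  rw [hx g] at h1
  have h2 : chi g β.1 = 1 := by
    have : (1 - chi g β.1) * b.repr x β = 0 := by rw [sub_mul, one_mul, ← h1, sub_self]
    rcases mul_eq_zero.mp this with h | h
    · exact (sub_eq_zero.mp h).symm
    · exact absurd h hβ
  have h3 : chi g β.1 = ζ ^ β.1 j := by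
    unfold chi
    rw [Finset.prod_eq_single j]
    · simp [g, u]
    · intro l _ hl
      simp [g, Pi.mulSingle_eq_of_ne hl]
    · simp
  rw [h3] at h2
  exact (hζ.pow_eq_one_iff_dvd _).mp h2

include hb in
/-- LEMMA A: the invariants of `μ_n^5` lie in `k[e_{i-1}, e_{i+1}] + (X, z_j X : j ≠ i ± 1)`. -/
theorem fixed_mem_WI (hn : 0 < n) {ζ : k} (hζ : IsPrimitiveRoot ζ n)
    (hfil : ∀ (m : ℤ) (x : ORing n k), x ∈ Fil n k m → ∀ β, b.repr x β ≠ 0 → ∀ j, w j β.1 ≤ m)
    (i : Fin 5) (t : TO n k) (ht : ∀ g : Mu n k, tauO 0 g t = t) : t ∈ WI n k i := by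
  have key : ∀ m : ℕ, ∃ s ∈ WI n k i, s.1 = Polynomial.monomial m (t.1.coeff m) := by
    intro m
    set x := t.1.coeff m with hxdef
    have hx : ∀ g : Mu n k, phiO 0 g x = x := by
      intro g
      have := tauO_coeff 0 g t m
      rw [ht g] at this
      exact this.symm
    have hxm : x ∈ Fil n k m := t.2 m
    have h1 : Polynomial.monomial m x
        = ∑ β ∈ (b.repr x).support, (b.repr x β) • Polynomial.monomial m (zm n k β.1) := by
      conv_lhs => rw [← b.linearCombination_repr x, Finsupp.linearCombination_apply, Finsupp.sum,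
        map_sum]
      refine Finset.sum_congr rfl fun β _ => ?_
      rw [← Polynomial.smul_monomial, hb]
    have h2 : ∀ β ∈ (b.repr x).support, ∃ s ∈ WI n k i,
        s.1 = (b.repr x β) • Polynomial.monomial m (zm n k β.1) := by
      intro β hβ
      have hβ0 : b.repr x β ≠ 0 := Finsupp.mem_support_iff.mp hβ
      have hd := dvd_of_fixed b hb hn hζ hx β hβ0
      choose γ hγ using hd
      have hβγ : β.1 = n • γ := by
        funext j
        rw [hγ j]; rfl
      have hgood : ∀ j, γ j = 0 ∨ γ (j + 1) = 0 := by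
        intro j
        rcases β.2 j with h | h
        · left
          rw [hγ j] at h
          by_contra h0
          have : n * 1 ≤ n * γ j := Nat.mul_le_mul_left n (Nat.pos_of_ne_zero h0)
          omega
        · right
          rw [hγ (j + 1)] at h
          by_contra h0
          have : n * 1 ≤ n * γ (j + 1) := Nat.mul_le_mul_left n (Nat.pos_of_ne_zero h0)
          omega
      obtain ⟨s, hs, hs2⟩ := mono_mem_WI (k := k) i hn γ hgood m (by
        rw [← hβγ]
        exact fun j => hfil m x hxm β hβ0 j)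
      refine ⟨(b.repr x β) • s, Submodule.smul_mem _ _ hs, ?_⟩
      rw [hβγ, ← hs2]
      rfl
    choose! s hs hs2 using h2
    refine ⟨∑ β ∈ (b.repr x).support, s β, Submodule.sum_mem _ hs, ?_⟩
    rw [h1]
    have := map_sum (TO n k).val s (b.repr x).support
    refine Eq.trans this ?_
    exact Finset.sum_congr rfl fun β hβ => hs2 β hβ
  choose s hs hs2 using key
  have h3 : t = ∑ m ∈ t.1.support, s m := by
    apply Subtype.ext
    have := map_sum (TO n k).val s t.1.support
    refine Eq.trans ?_ this.symm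
    conv_lhs => rw [Polynomial.as_sum_support t.1]
    exact Finset.sum_congr rfl fun m _ => (hs2 m).symm
  rw [h3]
  exact Submodule.sum_mem _ fun m _ => hs m

end Basis

end Crest.Agent.R169.Trans7
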