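import Mathlib

/-!
# Row 169, Symm field `trans`, step 1: a valuation ring over `(s)` in `k(a,b)(s)^alg`.
-/

set_option autoImplicit false

open MvPolynomial

namespace Crest.Agent.R169.Trans7

/-- auxiliary data: an algebraically closed field `M ⊇ k` with a valuation ring `V` containing
`k`, `a^±`, `b^±` (algebraically independent even in the residue field) and a nonunit `s ≠ 0`. -/
structure VData (k : Type) [Field k] where
  M : Type
  [fM : Field M]
  [aM : Algebra k M]
  [cM : IsAlgClosed M]
  V : ValuationSubring M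
  a : M
  b : M
  s : M
  alg_mem : ∀ c : k, algebraMap k M c ∈ V
  a_mem : a ∈ V
  b_mem : b ∈ V
  ai_mem : a⁻¹ ∈ V
  bi_mem : b⁻¹ ∈ V
  a_ne : a ≠ 0
  b_ne : b ≠ 0
  s_ne : s ≠ 0
  s_mem : s ∈ V.nonunits
  indep : ∀ h : MvPolynomial (Fin 2) k, aeval ![a, b] h ∈ V.nonunits → h = 0

attribute [instance] VData.fM VData.aM VData.cM

theorem exists_vdata (k : Type) [Field k] : Nonempty (VData k) := by
  classical
  let E := FractionRing (MvPolynomial (Fin 2) k)
  let L := FractionRing (Polynomial E)
  let M := AlgebraicClosure L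
  let j : Polynomial E →+* M := (algebraMap L M).comp (algebraMap (Polynomial E) L)
  have hj : Function.Injective j := (algebraMap L M).injective.comp
    (IsFractionRing.injective (Polynomial E) L)
  let A : Subring M := j.range
  let I : Ideal A := Ideal.map j.rangeRestrict (Ideal.span {(Polynomial.X : Polynomial E)})
  have hI : I ≠ ⊤ := by
    intro h
    have hbij : Function.Bijective j.rangeRestrict :=
      ⟨fun x y hxy => hj (by simpa using congrArg Subtype.val hxy), j.rangeRestrict_surjective⟩
    have h1 : (1 : A) ∈ I := by rw [h]; trivial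
    have h2 := (Ideal.mem_map_iff_of_surjective j.rangeRestrict hbij.2).mp h1
    obtain ⟨x, hx, hx1⟩ := h2
    have hx2 : x = 1 := hbij.1 (by rw [hx1, map_one])
    rw [hx2, Ideal.mem_span_singleton] at hx
    exact Polynomial.not_isUnit_X (isUnit_of_dvd_one hx)
  obtain ⟨V, hAV, hIV⟩ := Ideal.image_subset_nonunits_valuationSubring I hI
  let e : E →+* M := j.comp Polynomial.C
  have he_mem : ∀ x : E, e x ∈ V := fun x => hAV ⟨Polynomial.C x, rfl⟩
  let _ : Algebra k M := (e.comp (algebraMap k E)).toAlgebra
  have hs : j Polynomial.X ∈ V.nonunits := by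
    apply hIV
    refine ⟨j.rangeRestrict Polynomial.X, ?_, rfl⟩
    exact Ideal.mem_map_of_mem _ (Ideal.mem_span_singleton_self _)
  let aE : E := algebraMap (MvPolynomial (Fin 2) k) E (X 0)
  let bE : E := algebraMap (MvPolynomial (Fin 2) k) E (X 1)
  have haE : aE ≠ 0 := fun h => X_ne_zero (R := k) (0 : Fin 2)
    (IsFractionRing.injective (MvPolynomial (Fin 2) k) E (by rw [map_zero]; exact h))
  have hbE : bE ≠ 0 := fun h => X_ne_zero (R := k) (1 : Fin 2)
    (IsFractionRing.injective (MvPolynomial (Fin 2) k) E (by rw [map_zero]; exact h))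
  refine ⟨{
    M := M
    V := V
    a := e aE
    b := e bE
    s := j Polynomial.X
    alg_mem := fun c => he_mem _
    a_mem := he_mem _
    b_mem := he_mem _
    ai_mem := by rw [← map_inv₀]; exact he_mem _
    bi_mem := by rw [← map_inv₀]; exact he_mem _
    a_ne := by rw [map_ne_zero]; exact haE
    b_ne := by rw [map_ne_zero]; exact hbE
    s_ne := by
      intro h
      exact Polynomial.X_ne_zero (hj (by rw [h, map_zero]))
    s_mem := hs
    indep := ?_ }⟩
  intro h hh
  have h1 : aeval ![e aE, e bE] h = e (algebraMap (MvPolynomial (Fin 2) k) E h) := by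
    have h2 : (aeval ![e aE, e bE] : MvPolynomial (Fin 2) k →ₐ[k] M).toRingHom
        = e.comp (algebraMap (MvPolynomial (Fin 2) k) E) := by
      apply MvPolynomial.ringHom_ext
      · intro c
        simp only [AlgHom.toRingHom_eq_coe, RingHom.coe_coe, algHom_C]
        rfl
      · intro i
        fin_cases i <;> simp [aE, bE]
    exact congrArg (fun f : MvPolynomial (Fin 2) k →+* M => f h) h2
  rw [h1] at hh
  by_contra hne
  have h3 : algebraMap (MvPolynomial (Fin 2) k) E h ≠ 0 := fun h4 => hne
    (IsFractionRing.injective (MvPolynomial (Fin 2) k) E (by rw [h4, map_zero]))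
  have h4 : (e (algebraMap (MvPolynomial (Fin 2) k) E h))⁻¹ ∈ V := by
    rw [← map_inv₀]; exact he_mem _
  rw [ValuationSubring.mem_nonunits_iff] at hh
  rw [← ValuationSubring.valuation_le_one_iff, map_inv₀] at h4
  have h5 : V.valuation (e (algebraMap (MvPolynomial (Fin 2) k) E h)) ≠ 0 := by
    rw [ne_eq, Valuation.zero_iff]
    rw [map_eq_zero]
    exact h3
  exact absurd hh (not_lt.mpr (by
    have := inv_le_one₀ (zero_lt_iff.mpr h5) |>.mp h4
    exact this))

end Crest.Agent.R169.Trans7
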