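import Crest.Agent.R169.Trans.Fixed
import Crest.Agent.R169.Trans.VData

/-!
# Row 169, Symm field `trans`, step 4: a prime `p_i ⊇ (X, z_j X : j ≠ i ± 1)` of `TO` with
`p_i ∩ k[e_{i-1}, e_{i+1}] = 0`.
-/

set_option autoImplicit false

open Crest.R169

namespace Crest.Agent.R169.Trans7

variable {n : ℕ} {k : Type} [Field k]

/-- the values of the `Z_j` -/
noncomputable def fV (n : ℕ) (d : VData k) : Fin 5 → d.M :=
  ![d.s ^ n * ((d.s ^ n + d.a + d.b) * d.a⁻¹ * d.b⁻¹), d.b * (d.s ^ n)⁻¹, (d.s ^ n + d.a) * d.b⁻¹,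
    (d.s ^ n + d.b) * d.a⁻¹, d.a * (d.s ^ n)⁻¹]

theorem fV_rel (n : ℕ) (d : VData k) (l : Fin 5) : fV n d l * fV n d (l + 1) = 1 + fV n d (l + 3) := by
  have hs : d.s ^ n ≠ 0 := pow_ne_zero _ d.s_ne
  have ha := d.a_ne
  have hb := d.b_ne
  fin_cases l <;> simp [fV] <;> field_simp <;> ring

theorem pow_mem_iff {M : Type} [Field M] (V : ValuationSubring M) (x : M) {n : ℕ} (hn : 0 < n)
    (h : x ^ n ∈ V) : x ∈ V := by
  rw [← ValuationSubring.valuation_le_one_iff] at h ⊢
  rw [map_pow] at h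
  exact (pow_le_one_iff hn.ne').mp h

theorem pow_nonunits {M : Type} [Field M] (V : ValuationSubring M) (x : M) {n : ℕ}
    (h : x ^ n ∈ V.nonunits) : x ∈ V.nonunits := by
  rw [ValuationSubring.mem_nonunits_iff] at h ⊢
  rw [map_pow] at h
  by_contra hx
  exact absurd h (not_lt.mpr (one_le_pow₀ (not_lt.mp hx)))

theorem mul_nonunits {M : Type} [Field M] (V : ValuationSubring M) {x y : M}
    (h : x ∈ V.nonunits) (hy : y ∈ V) : x * y ∈ V.nonunits := by
  rw [ValuationSubring.mem_nonunits_iff] at h ⊢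
  rw [← ValuationSubring.valuation_le_one_iff] at hy
  rw [map_mul]
  exact mul_lt_one_of_lt_of_le h hy

theorem exists_prime (d : VData k) (hn : 0 < n) (i : Fin 5) :
    ∃ p : Ideal (TO n k), p.IsPrime ∧ JI n k i ≤ p ∧ ∀ h, polyE n k i h ∈ p → h = 0 := by
  classical
  have hs : d.s ^ n ≠ 0 := pow_ne_zero _ d.s_ne
  have hsV : d.s ∈ d.V := ValuationSubring.nonunits_subset d.s_mem
  have hsnV : d.s ^ n ∈ d.V := d.V.toSubring.pow_mem hsV n
  have hex : ∀ j : Fin 5, ∃ c : d.M, c ^ n = fV n d (j - i) := fun j =>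
    IsAlgClosed.exists_pow_nat_eq _ hn
  choose c hc using hex
  let Φ : ORing n k →ₐ[k] d.M := ORing.lift c (by
    intro j
    rw [hc, hc, hc]
    have := fV_rel n d (j - i)
    rw [show j + 1 - i = j - i + 1 from add_sub_right_comm j 1 i,
      show j + 3 - i = j - i + 3 from add_sub_right_comm j 3 i]
    exact this)
  have hΦ : ∀ j, Φ (z n k j) = c j := fun j => ORing.lift_z _ _ _
  let Ψ : TO n k →+* d.M := (Polynomial.eval₂RingHom (Φ : ORing n k →+* d.M) d.s).comp
    ((TO n k).val : TO n k →+* Polynomial (ORing n k))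
  -- the values
  have hf0 : fV n d 0 ∈ d.V := by
    show d.s ^ n * ((d.s ^ n + d.a + d.b) * d.a⁻¹ * d.b⁻¹) ∈ d.V
    exact mul_mem hsnV (mul_mem (mul_mem (add_mem (add_mem hsnV d.a_mem) d.b_mem) d.ai_mem) d.bi_mem)
  have hf0' : (d.s ^ n + d.a + d.b) * d.a⁻¹ * d.b⁻¹ ∈ d.V :=
    mul_mem (mul_mem (add_mem (add_mem hsnV d.a_mem) d.b_mem) d.ai_mem) d.bi_mem
  have hf2 : fV n d 2 ∈ d.V := mul_mem (add_mem hsnV d.a_mem) d.bi_mem
  have hf3 : fV n d 3 ∈ d.V := mul_mem (add_mem hsnV d.b_mem) d.ai_mem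
  have hf1s : fV n d 1 * d.s ^ n = d.b := by
    show d.b * (d.s ^ n)⁻¹ * d.s ^ n = d.b
    field_simp
  have hf4s : fV n d 4 * d.s ^ n = d.a := by
    show d.a * (d.s ^ n)⁻¹ * d.s ^ n = d.a
    field_simp
  have hmon : ∀ (m : ℕ) (β : Fin 5 → ℕ), (∀ j, w j β ≤ m) → Φ (zm n k β) * d.s ^ m ∈ d.V := by
    intro m β hβ
    apply pow_mem_iff d.V _ hn
    have h1 : Φ (zm n k β) ^ n = ∏ l, fV n d l ^ β (l + i) := by
      rw [zm, map_prod, ← Finset.prod_pow]
      refine Fintype.prod_equiv (Equiv.subRight i) _ _ fun j => ?_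
      rw [map_pow, hΦ, ← pow_mul, mul_comm, pow_mul, hc]
      simp
    have hwi := hβ i
    simp only [w] at hwi
    obtain ⟨e, he⟩ : ∃ e : ℕ, m + β i = e + β (i + 1) + β (i + 4) :=
      ⟨m + β i - β (i + 1) - β (i + 4), by omega⟩
    rw [mul_pow, h1, Fin.prod_univ_five]
    have h2 : (d.s ^ m) ^ n = (d.s ^ n) ^ m := by rw [← pow_mul, ← pow_mul, mul_comm]
    rw [h2, show (0 : Fin 5) + i = i from zero_add i, add_comm 1 i, add_comm 4 i]
    have h3 : fV n d 0 = d.s ^ n * ((d.s ^ n + d.a + d.b) * d.a⁻¹ * d.b⁻¹) := rfl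
    have h4 : fV n d 0 ^ β i * fV n d 1 ^ β (i + 1) * fV n d 2 ^ β (2 + i) * fV n d 3 ^ β (3 + i)
        * fV n d 4 ^ β (i + 4) * (d.s ^ n) ^ m
        = ((d.s ^ n + d.a + d.b) * d.a⁻¹ * d.b⁻¹) ^ β i * (fV n d 1 * d.s ^ n) ^ β (i + 1)
          * fV n d 2 ^ β (2 + i) * fV n d 3 ^ β (3 + i) * (fV n d 4 * d.s ^ n) ^ β (i + 4)
          * (d.s ^ n) ^ e := by
      have h5 : (d.s ^ n) ^ m * (d.s ^ n) ^ β i
          = (d.s ^ n) ^ e * (d.s ^ n) ^ β (i + 1) * (d.s ^ n) ^ β (i + 4) := by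
        rw [← pow_add, ← pow_add, ← pow_add, he]
      calc _ = ((d.s ^ n) ^ m * (d.s ^ n) ^ β i) * ((d.s ^ n + d.a + d.b) * d.a⁻¹ * d.b⁻¹) ^ β i
            * fV n d 1 ^ β (i + 1) * fV n d 2 ^ β (2 + i) * fV n d 3 ^ β (3 + i)
            * fV n d 4 ^ β (i + 4) := by rw [h3, mul_pow]; ring
        _ = _ := by rw [h5, mul_pow, mul_pow]; ring
    rw [h4, hf1s, hf4s]
    exact mul_mem (mul_mem (mul_mem (mul_mem (mul_mem (pow_mem hf0' _) (pow_mem d.b_mem _))
      (pow_mem hf2 _)) (pow_mem hf3 _)) (pow_mem d.a_mem _)) (pow_mem hsnV _)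
  have hfil : ∀ (m : ℕ) (x : ORing n k), x ∈ Fil n k m → Φ x * d.s ^ m ∈ d.V := by
    intro m x hx
    induction hx using Submodule.span_induction with
    | mem x hx =>
      obtain ⟨β, hβ, rfl⟩ := hx
      exact hmon m β hβ
    | zero => rw [map_zero, zero_mul]; exact zero_mem _
    | add x y _ _ h1 h2 => rw [map_add, add_mul]; exact add_mem h1 h2
    | smul c x _ h =>
      rw [map_smul, Algebra.smul_def, mul_assoc]
      exact mul_mem (d.alg_mem c) h
  have hΨ : ∀ t : TO n k, Ψ t ∈ d.V.toSubring := by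
    intro t
    show Polynomial.eval₂ (Φ : ORing n k →+* d.M) d.s t.1 ∈ d.V
    rw [Polynomial.eval₂_eq_sum, Polynomial.sum]
    exact sum_mem fun m _ => hfil m _ (t.2 m)
  let Ψ' : TO n k →+* d.V := Ψ.codRestrict d.V.toSubring hΨ
  have hmemP : ∀ t : TO n k, t ∈ Ideal.comap Ψ' (IsLocalRing.maximalIdeal d.V) ↔
      Ψ t ∈ d.V.nonunits := by
    intro t
    rw [Ideal.mem_comap, ← ValuationSubring.coe_mem_nonunits_iff]
    rfl
  have hΨx : Ψ xE = d.s := by
    show Polynomial.eval₂ (Φ : ORing n k →+* d.M) d.s Polynomial.X = d.s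
    rw [Polynomial.eval₂_X]
  have hΨy : ∀ j, Ψ (yE j) = c j * d.s := by
    intro j
    show Polynomial.eval₂ (Φ : ORing n k →+* d.M) d.s (Polynomial.monomial 1 (z n k j)) = _
    rw [Polynomial.eval₂_monomial, pow_one]
    congr 1
    exact hΦ j
  refine ⟨Ideal.comap Ψ' (IsLocalRing.maximalIdeal d.V), Ideal.comap_isPrime _ _, ?_, ?_⟩
  · apply JI_le
    · rw [hmemP, hΨx]; exact d.s_mem
    · intro j h1 h2
      rw [hmemP, hΨy]
      apply pow_nonunits d.V (n := n)
      rw [mul_pow, hc, mul_comm]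
      apply mul_nonunits
      · have : d.s ^ n = d.s * d.s ^ (n - 1) := by
          rw [← pow_succ']; congr 1; omega
        rw [this]
        exact mul_nonunits d.V d.s_mem (pow_mem hsV _)
      · have h3 : j - i ≠ 4 := fun h => h1 (by rw [← h]; abel)
        have h4 : j - i ≠ 1 := fun h => h2 (by rw [← h]; abel)
        generalize j - i = l at h3 h4
        fin_cases l
        · exact hf0
        · exact absurd rfl h4
        · exact hf2
        · exact hf3
        · exact absurd rfl h3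
  · intro h hh
    rw [hmemP] at hh
    have h1 : Ψ (polyE n k i h) = MvPolynomial.aeval ![d.a, d.b] h := by
      have h2 : Ψ.comp (polyE n k i : MvPolynomial (Fin 2) k →+* TO n k)
          = (MvPolynomial.aeval ![d.a, d.b] : MvPolynomial (Fin 2) k →ₐ[k] d.M).toRingHom := by
        apply MvPolynomial.ringHom_ext
        · intro r
          have h3 : (polyE n k i) (MvPolynomial.C r) = algebraMap k (TO n k) r := by
            rw [← MvPolynomial.algebraMap_eq]; exact (polyE n k i).commutes r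
          show Ψ ((polyE n k i) (MvPolynomial.C r)) = _
          rw [h3]
          show Polynomial.eval₂ (Φ : ORing n k →+* d.M) d.s
            (algebraMap k (Polynomial (ORing n k)) r) = _
          rw [Polynomial.algebraMap_apply, Polynomial.eval₂_C]
          simp
        · intro l
          have key : ∀ j, Ψ (yE j ^ n) = fV n d (j - i) * d.s ^ n := by
            intro j
            rw [map_pow, hΨy, mul_pow, hc]
          have h4 : Ψ (yE (i + 4) ^ n) = d.a := by
            rw [key, show i + 4 - i = 4 by abel, hf4s]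
          have h5 : Ψ (yE (i + 1) ^ n) = d.b := by
            rw [key, show i + 1 - i = 1 by abel, hf1s]
          fin_cases l
          · show Ψ (polyE n k i (MvPolynomial.X 0)) = _
            rw [polyE, MvPolynomial.aeval_X]
            show Ψ (yE (i + 4) ^ n) = _
            rw [h4]
            simp
          · show Ψ (polyE n k i (MvPolynomial.X 1)) = _
            rw [polyE, MvPolynomial.aeval_X]
            show Ψ (yE (i + 1) ^ n) = _
            rw [h5]
            simp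
      exact congrArg (fun f : MvPolynomial (Fin 2) k →+* d.M => f h) h2
    rw [h1] at hh
    exact d.indep h hh

end Crest.Agent.R169.Trans7
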