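import Crest.Agent.R169.RingDefs

/-!
# Row 169, Symm field `trans`, step 2: the ring `TO = ⊕ Fil m X^m ⊆ O[X]` and its symmetries.
-/

set_option autoImplicit false

open Crest.R169

namespace Crest.Agent.R169.Trans7

variable (n : ℕ) (k : Type) [Field k]

/-- `TO = ⊕ Fil m X^m ⊆ (ORing n k)[X]` -/
noncomputable def TO : Subalgebra k (Polynomial (ORing n k)) where
  carrier := {t | ∀ m : ℕ, t.coeff m ∈ Fil n k m}
  mul_mem' := by
    intro f g hf hg m
    rw [Polynomial.coeff_mul]
    refine Submodule.sum_mem _ fun x hx => ?_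
    have h1 := Fil_mul_mem (hf x.1) (hg x.2)
    have hx' := Finset.HasAntidiagonal.mem_antidiagonal.mp hx
    have h2 : ((x.1 : ℤ) + (x.2 : ℤ)) = (m : ℤ) := by exact_mod_cast hx'
    rwa [h2] at h1
  add_mem' := by
    intro f g hf hg m
    rw [Polynomial.coeff_add]
    exact Submodule.add_mem _ (hf m) (hg m)
  algebraMap_mem' := by
    intro r m
    rw [Polynomial.algebraMap_apply, Polynomial.coeff_C]
    split_ifs with h
    · subst h
      rw [Algebra.algebraMap_eq_smul_one]
      exact Submodule.smul_mem _ _ one_mem_Fil_zero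
    · exact Submodule.zero_mem _

variable {n k}

theorem mem_TO {t : Polynomial (ORing n k)} : t ∈ TO n k ↔ ∀ m : ℕ, t.coeff m ∈ Fil n k m :=
  Iff.rfl

theorem monomial_mem_TO {m : ℕ} {x : ORing n k} (hx : x ∈ Fil n k m) :
    Polynomial.monomial m x ∈ TO n k := by
  intro j
  rw [Polynomial.coeff_monomial]
  split_ifs with h
  · subst h; exact hx
  · exact Submodule.zero_mem _

/-- `x X^m` -/
noncomputable def mono (m : ℕ) (x : ORing n k) (hx : x ∈ Fil n k m) : TO n k :=
  ⟨Polynomial.monomial m x, monomial_mem_TO hx⟩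

theorem one_mem_Fil_one : (1 : ORing n k) ∈ Fil n k ((1 : ℕ) : ℤ) :=
  Fil_mono (by norm_num) one_mem_Fil_zero

/-- `X ∈ TO` -/
noncomputable def xE : TO n k := mono 1 1 one_mem_Fil_one

/-- `z_j X ∈ TO` -/
noncomputable def yE (j : Fin 5) : TO n k := mono 1 (z n k j) (by exact_mod_cast z_mem_Fil_one j)

theorem xE_val : (xE : TO n k).1 = Polynomial.X := rfl

theorem yE_val (j : Fin 5) : (yE j : TO n k).1 = Polynomial.C (z n k j) * Polynomial.X := by
  show Polynomial.monomial 1 _ = _
  rw [Polynomial.C_mul_X_eq_monomial]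

theorem yE_rel (j : Fin 5) :
    (yE j : TO n k) ^ n * yE (j + 1) ^ n = xE ^ (2 * n) + xE ^ n * yE (j + 3) ^ n := by
  apply Subtype.ext
  simp only [MulMemClass.coe_mul, SubmonoidClass.coe_pow, AddMemClass.coe_add, yE_val, xE_val]
  have h := z_rel n k j
  have h' : Polynomial.C (z n k j) ^ n * Polynomial.C (z n k (j + 1)) ^ n
      = 1 + Polynomial.C (z n k (j + 3)) ^ n := by
    rw [← Polynomial.C_pow, ← Polynomial.C_pow, ← Polynomial.C_pow, ← Polynomial.C_mul, h,
      Polynomial.C_add, Polynomial.C_1]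
  calc (Polynomial.C (z n k j) * Polynomial.X) ^ n * (Polynomial.C (z n k (j + 1)) * Polynomial.X) ^ n
      = (Polynomial.C (z n k j) ^ n * Polynomial.C (z n k (j + 1)) ^ n) * Polynomial.X ^ (2 * n) := by
        ring
    _ = _ := by rw [h']; ring

/-! ### symmetries -/

/-- the group `μ_n^5` -/
abbrev Mu (n : ℕ) (k : Type) [Field k] := Fin 5 → rootsOfUnity n k

theorem mu_pow (g : Mu n k) (j : Fin 5) : (((g j : kˣ) : k)) ^ n = 1 := by
  have := (g j).2
  rw [mem_rootsOfUnity] at this
  rw [← Units.val_pow_eq_pow_val, this, Units.val_one]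

/-- `z_j ↦ g_j z_{j+i}` -/
noncomputable def phiO (i : Fin 5) (g : Mu n k) : ORing n k →ₐ[k] ORing n k :=
  ORing.lift (fun j => ((g j : kˣ) : k) • z n k (j + i)) (by
    intro j
    rw [smul_pow, smul_pow, smul_pow, mu_pow, mu_pow, mu_pow, one_smul, one_smul, one_smul]
    have h := z_rel n k (j + i)
    rw [add_right_comm j 1 i, add_right_comm j 3 i]
    exact h)

theorem phiO_z (i : Fin 5) (g : Mu n k) (j : Fin 5) :
    phiO i g (z n k j) = ((g j : kˣ) : k) • z n k (j + i) := by
  rw [phiO, ORing.lift_z]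

theorem phiO_comp (i l : Fin 5) (g h : Mu n k) (x : ORing n k) :
    phiO i g (phiO l h x) = phiO (l + i) (fun j => h j * g (j + l)) x := by
  have : (phiO i g).comp (phiO l h) = phiO (l + i) (fun j => h j * g (j + l)) := by
    apply ORing.algHom_ext
    intro j
    rw [AlgHom.comp_apply, phiO_z, map_smul, phiO_z, phiO_z, smul_smul]
    simp only [Subgroup.coe_mul, Units.val_mul]
    rw [add_assoc]
  exact DFunLike.congr_fun this x

theorem phiO_one (x : ORing n k) : phiO 0 (1 : Mu n k) x = x := by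
  have : phiO 0 (1 : Mu n k) = AlgHom.id k (ORing n k) := by
    apply ORing.algHom_ext
    intro j
    rw [phiO_z]
    simp
  rw [this]; rfl

/-- the character by which `μ` acts on `z^β` -/
def chi (g : Mu n k) (β : Fin 5 → ℕ) : k := ∏ j, (((g j : kˣ) : k)) ^ β j

theorem phiO_zm (i : Fin 5) (g : Mu n k) (β : Fin 5 → ℕ) :
    phiO i g (zm n k β) = chi g β • zm n k (fun j => β (j - i)) := by
  unfold zm chi
  rw [map_prod]
  simp only [map_pow, phiO_z, smul_pow]
  rw [Finset.prod_smul]
  congr 1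
  refine Fintype.prod_equiv (Equiv.addRight i) _ _ fun j => ?_
  simp

theorem w_shift (i l : Fin 5) (β : Fin 5 → ℕ) : w l (fun j => β (j - i)) = w (l - i) β := by
  simp only [w]
  rw [add_sub_right_comm l 4 i, add_sub_right_comm l 1 i]

theorem phiO_mem_Fil (i : Fin 5) (g : Mu n k) {m : ℤ} {x : ORing n k} (hx : x ∈ Fil n k m) :
    phiO i g x ∈ Fil n k m := by
  induction hx using Submodule.span_induction with
  | mem x hx =>
    obtain ⟨β, hβ, rfl⟩ := hx
    rw [phiO_zm]
    exact Submodule.smul_mem _ _ (zm_mem_Fil fun l => by rw [w_shift]; exact hβ _)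
  | zero => rw [map_zero]; exact Submodule.zero_mem _
  | add x y _ _ h1 h2 => rw [map_add]; exact Submodule.add_mem _ h1 h2
  | smul c x _ h => rw [map_smul]; exact Submodule.smul_mem _ _ h

/-- the induced symmetry of `TO` -/
noncomputable def tauO (i : Fin 5) (g : Mu n k) : TO n k →ₐ[k] TO n k :=
  ((Polynomial.mapAlgHom (phiO i g)).comp (TO n k).val).codRestrict (TO n k) (by
    intro t m
    show ((Polynomial.mapAlgHom (phiO i g)) t.1).coeff m ∈ _
    rw [Polynomial.coe_mapAlgHom, Polynomial.coeff_map]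
    exact phiO_mem_Fil i g (t.2 m))

theorem tauO_coeff (i : Fin 5) (g : Mu n k) (t : TO n k) (m : ℕ) :
    (tauO i g t).1.coeff m = phiO i g (t.1.coeff m) := by
  show ((Polynomial.mapAlgHom (phiO i g)) t.1).coeff m = _
  rw [Polynomial.coe_mapAlgHom, Polynomial.coeff_map]
  rfl

theorem TO_ext {s t : TO n k} (h : ∀ m, s.1.coeff m = t.1.coeff m) : s = t :=
  Subtype.ext (Polynomial.ext h)

theorem tauO_comp (i l : Fin 5) (g h : Mu n k) (t : TO n k) :
    tauO i g (tauO l h t) = tauO (l + i) (fun j => h j * g (j + l)) t :=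
  TO_ext fun m => by rw [tauO_coeff, tauO_coeff, tauO_coeff, phiO_comp]

theorem tauO_one (t : TO n k) : tauO 0 (1 : Mu n k) t = t :=
  TO_ext fun m => by rw [tauO_coeff, phiO_one]

theorem tauO_xE (i : Fin 5) (g : Mu n k) : tauO i g xE = xE :=
  TO_ext fun m => by
    rw [tauO_coeff, xE_val, Polynomial.coeff_X]
    split_ifs <;> simp

theorem tauO_yE (i : Fin 5) (g : Mu n k) (j : Fin 5) :
    tauO i g (yE j) = ((g j : kˣ) : k) • yE (j + i) :=
  TO_ext fun m => by
    rw [tauO_coeff]
    show phiO i g ((Polynomial.monomial 1 (z n k j)).coeff m)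
      = (((g j : kˣ) : k) • (Polynomial.monomial 1 (z n k (j + i)))).coeff m
    rw [Polynomial.coeff_smul, Polynomial.coeff_monomial, Polynomial.coeff_monomial]
    split_ifs
    · rw [phiO_z]
    · simp

end Crest.Agent.R169.Trans7
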